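import Vale.Agent.P253Y.Main

open scoped Manifold ContDiff
open Vale.Agent.P253Z

namespace Vale.Agent.Results.P253.ASurfaces

/-- Yau's uniformization conjecture in complex dimension two: a complete connected noncompact
Kähler surface with positive holomorphic bisectional curvature is biholomorphic to `ℂ²`. -/
theorem result {M : Type} [MetricSpace M] [ChartedSpace (Fin 2 → ℂ) M] [Metr (Fin 2 → ℂ) M]
    (hM : IsYau (Fin 2 → ℂ) M) :
    Nonempty (M ≃ₘ^1⟮𝓘(ℂ, Fin 2 → ℂ), 𝓘(ℂ, Fin 2 → ℂ)⟯ (Fin 2 → ℂ)) :=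
  Vale.Agent.P253Y.H2.yau_of Vale.Agent.P253Y.sc2 hM

end Vale.Agent.Results.P253.ASurfaces
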