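import Vale.Agent.P253Z.T2.Main
import Vale.Agent.P253Z.Stmt

open scoped Manifold ContDiff Bundle ENNReal
open Bundle IsManifold MeasureTheory Set Filter Vale.Agent.P253.Mfd Vale.Agent.P253Z
open Vale.Agent.P272.K (Cm)

namespace Vale.Agent.Results.P253.AffineZariskiOpen

/-- Let `M` be a complete connected noncompact Kähler manifold of positive bisectional curvature.
The complement of the zeros of a nonzero holomorphic section of `-NK` is mapped bijectively by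
`(Φ, g)`, ratios of holomorphic sections of powers of `-K`, onto the affine variety `P = 0`,
`Q ≠ 0` in `ℂⁿ × ℂ`; `P` is monic in `t`, `∂P/∂t ≠ 0` on the variety and `Φ` is locally
biholomorphic. -/
theorem result {n : ℕ} {M : Type} [MetricSpace M] [ChartedSpace (Cm n) M]
    [Metr (Cm n) M] (hM : IsYau (Cm n) M) :
    ∃ (N m l : ℕ) (σ s₀ u v : M → ℂ) (s : Fin n → M → ℂ) (Φ : M → Cm n) (g : M → ℂ)
      (P : Polynomial (MvPolynomial (Fin n) ℂ)) (Q : MvPolynomial (Fin n) ℂ),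
      IsSec n (-N) σ ∧ σ ≠ 0 ∧ IsSec n (-m) s₀ ∧ (∀ i, IsSec n (-m) (s i)) ∧ IsSec n (-l) u ∧
      IsSec n (-l) v ∧ (∀ x i, Φ x i = s i x / s₀ x) ∧ (∀ x, g x = u x / v x) ∧ P.Monic ∧
      BijOn (fun x => (Φ x, g x)) {x | σ x ≠ 0}
        {q | MvPolynomial.eval q.1 Q ≠ 0 ∧ (P.map (MvPolynomial.eval q.1)).eval q.2 = 0} ∧
      ∀ x, σ x ≠ 0 → s₀ x ≠ 0 ∧ v x ≠ 0 ∧ EtaleAt (Cm n) Φ x ∧ HolAt (Cm n) g x ∧
        (P.derivative.map (MvPolynomial.eval (Φ x))).eval (g x) ≠ 0 := by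
  obtain ⟨_, _, _, _, _, _, hK, hpos⟩ := hM
  borelize M
  obtain ⟨μ, c⟩ := exists_ctx hK hpos
  exact T2.onto_of (all c) (T2.aff c)

end Vale.Agent.Results.P253.AffineZariskiOpen
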