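import Vale.Agent.P253Z.Main
import Vale.Agent.P253Z.Stmt

open scoped Manifold ContDiff Bundle ENNReal
open Bundle IsManifold MeasureTheory Set Filter Vale.Agent.P253.Mfd Vale.Agent.P253Z
open Vale.Agent.P272.K (Cm)

namespace Vale.Agent.Results.P253.AlgebraicStructure

/-- Let `M` be a complete connected noncompact Kähler manifold of positive bisectional curvature.
(1) The fundamental group is finite. (2) The orbits of the group of holomorphic isometries are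
bounded. (3) The integral of `Ric ^ n` is finite and the space of square integrable holomorphic
sections of `-mK` has finite dimension of the order `m ^ n`. (4) The complement of the zeros of a
nonzero holomorphic section of `-NK` is mapped injectively by holomorphic `(Φ, g)` into the
hypersurface `P = 0` of `ℂⁿ × ℂ`, `∂P/∂t ≠ 0` on the image and `Φ` is locally biholomorphic. -/
theorem result {n : ℕ} {M : Type} [MetricSpace M] [ChartedSpace (Cm n) M]
    [Metr (Cm n) M] [MeasurableSpace M] [BorelSpace M] (hM : IsYau (Cm n) M) :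
    (∀ x : M, Finite (FundamentalGroup M x)) ∧
    (∀ x : M, ∃ R : ℝ, ∀ φ : M ≃ M, IsHolIsometry (Cm n) φ → dist (φ x) x ≤ R) ∧
    (∃ μ : Measure M, IsVol n μ ∧ ∫⁻ x, ENNReal.ofReal (ricDen n x) ∂μ < ⊤ ∧
      (∀ x : M, 0 < ricDen n x) ∧
      ∃ c C : ℝ, 0 < c ∧ ∀ᶠ m : ℕ in atTop, ∃ V : Submodule ℂ (M → ℂ),
        (∀ s, s ∈ V ↔ IsSec n (-m) s ∧ ∫⁻ x, ENNReal.ofReal (nrm n (-m) s x) ∂μ < ⊤) ∧
        FiniteDimensional ℂ V ∧
        c * m ^ n ≤ Module.finrank ℂ V ∧ Module.finrank ℂ V ≤ C * m ^ n) ∧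
    ∃ (N : ℕ) (σ : M → ℂ) (Φ : M → Cm n) (g : M → ℂ) (P : Polynomial (MvPolynomial (Fin n) ℂ)),
      IsSec n (-N) σ ∧ σ ≠ 0 ∧ InjOn (fun x => (Φ x, g x)) {x | σ x ≠ 0} ∧ ∀ x, σ x ≠ 0 →
        EtaleAt (Cm n) Φ x ∧ HolAt (Cm n) g x ∧
        (P.map (MvPolynomial.eval (Φ x))).eval (g x) = 0 ∧
        (P.derivative.map (MvPolynomial.eval (Φ x))).eval (g x) ≠ 0 := by
  obtain ⟨_, _, _, _, _, _, hK, hpos⟩ := hM
  obtain ⟨μ, c⟩ := exists_ctx hK hpos
  have h := all c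
  refine ⟨pi_finite hK hpos, fun x => ?_, ⟨μ, c.vol, h.ric_fin, fun x => ?_, h.dims⟩, ?_⟩
  · obtain ⟨R, hR⟩ := h.orbit x
    exact ⟨R, fun φ hφ => hR φ ⟨hφ.hol, hφ.hol_symm, hφ.isom⟩⟩
  · have hx := mem_chart_target (Cm n) x
    exact div_pos (Complex.pos_iff.1 (h.r _ (h.a.chart x) _ hx).det_pos).1
      (h.b.vd_pos _ (h.a.chart x) _ hx)
  · obtain ⟨N, σ, Φ, g, P, h1, h2, h3, h4⟩ := emb hK hpos
    refine ⟨N, σ, Φ, g, P, h1, h2, h3, fun x hx => ?_⟩
    obtain ⟨k1, k2, k3, k4⟩ := h4 x hx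
    exact ⟨⟨k1, k3⟩, k2, k4⟩

end Vale.Agent.Results.P253.AlgebraicStructure
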